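import Mathlib

/-!
Abstract Johnson-fibre inequality (J) for P335 (graph case), Mathlib only.

`M` is a finite set of size `m`, `Phi M k` the family of its `k`-subsets, `φ` a real function on
subsets.  For `z w : M` the indicator `xr z w A` is `1` iff exactly one of `z, w` lies in `A`,
`xi k z w` is the number of such `A` in `Phi M k`, `aJ k φ z w` is the sum of `φ - mean` over them
and `DJ k φ z r = (1/4) * ∑ A, (φ A - φ (sw z r A))^2` is the squared norm of the antisymmetric
part of `φ` under the transposition `(z r)`.  Main result `johnson_J`: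
`m * ∑ z w, (aJ z w)^2 ≤ (m - 2) * ∑ z r, xi z r * DJ z r`.
-/

set_option linter.unusedSectionVars false

namespace Vale.Agent.Lib.P335.H91

open Finset

variable {M : Type*} [Fintype M] [DecidableEq M]

/-- image of a subset under the transposition of `z` and `w` -/
def sw (z w : M) (A : Finset M) : Finset M := A.map (Equiv.swap z w).toEmbedding

/-- the `k`-subsets of `M` -/
def Phi (M : Type*) [Fintype M] (k : ℕ) : Finset (Finset M) := (univ : Finset M).powersetCard k

/-- real indicator of membership -/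
def ind (z : M) (A : Finset M) : ℝ := if z ∈ A then 1 else 0

/-- real indicator of: exactly one of `z, w` lies in `A` -/
def xr (z w : M) (A : Finset M) : ℝ := (ind z A - ind w A) ^ 2

/-- mean of `φ` over the `k`-subsets -/
noncomputable def mu (k : ℕ) (φ : Finset M → ℝ) : ℝ :=
  (∑ A ∈ Phi M k, φ A) / ((Phi M k).card : ℝ)

/-- sum of `φ - mean` over the `k`-subsets containing exactly one of `z, w` -/
noncomputable def aJ (k : ℕ) (φ : Finset M → ℝ) (z w : M) : ℝ :=
  ∑ A ∈ Phi M k, xr z w A * (φ A - mu k φ)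

/-- number of `k`-subsets containing exactly one of `z, w` -/
noncomputable def xi (k : ℕ) (z w : M) : ℝ := ∑ A ∈ Phi M k, xr z w A

/-- squared norm of the antisymmetric part of `φ` under the transposition `(z r)` -/
noncomputable def DJ (k : ℕ) (φ : Finset M → ℝ) (z r : M) : ℝ :=
  (1 / 4) * ∑ A ∈ Phi M k, (φ A - φ (sw z r A)) ^ 2

lemma ind_sq (z : M) (A : Finset M) : ind z A ^ 2 = ind z A := by
  unfold ind; split_ifs <;> norm_num

lemma ind_mul_self (z : M) (A : Finset M) : ind z A * ind z A = ind z A := by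
  unfold ind; split_ifs <;> norm_num

lemma mem_sw (z w x : M) (A : Finset M) : x ∈ sw z w A ↔ Equiv.swap z w x ∈ A := by
  unfold sw
  rw [Finset.mem_map_equiv]
  simp

lemma ind_sw_left (z r : M) (A : Finset M) : ind z (sw z r A) = ind r A := by
  unfold ind; simp [mem_sw]

lemma ind_sw_right (z r : M) (A : Finset M) : ind r (sw z r A) = ind z A := by
  unfold ind; simp [mem_sw]

lemma ind_sw_other (z r w : M) (hz : w ≠ z) (hr : w ≠ r) (A : Finset M) :
    ind w (sw z r A) = ind w A := by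
  unfold ind; simp [mem_sw, Equiv.swap_apply_of_ne_of_ne hz hr]

lemma sw_sw (z r : M) (A : Finset M) : sw z r (sw z r A) = A := by
  ext x
  simp [mem_sw]

lemma card_sw (z r : M) (A : Finset M) : (sw z r A).card = A.card := by
  unfold sw; simp

lemma sw_mem_Phi (k : ℕ) (z r : M) (A : Finset M) : sw z r A ∈ Phi M k ↔ A ∈ Phi M k := by
  unfold Phi
  simp [Finset.mem_powersetCard, card_sw]

/-- reindexing a sum over the `k`-subsets by a transposition -/
lemma sum_sw (k : ℕ) (z r : M) (F : Finset M → ℝ) :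
    ∑ A ∈ Phi M k, F (sw z r A) = ∑ A ∈ Phi M k, F A := by
  refine Finset.sum_nbij' (fun A => sw z r A) (fun A => sw z r A) ?_ ?_ ?_ ?_ ?_
  · intro A hA; exact (sw_mem_Phi k z r A).2 hA
  · intro A hA; exact (sw_mem_Phi k z r A).2 hA
  · intro A _; exact sw_sw z r A
  · intro A _; exact sw_sw z r A
  · intro A _; rfl

lemma xr_comm (z w : M) (A : Finset M) : xr z w A = xr w z A := by
  unfold xr; ring

lemma xr_self (z : M) (A : Finset M) : xr z z A = 0 := by
  unfold xr; ring

lemma xr_eq (z w : M) (A : Finset M) :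
    xr z w A = ind z A + ind w A - 2 * (ind z A * ind w A) := by
  unfold xr
  have h1 := ind_sq z A
  have h2 := ind_sq w A
  nlinarith [h1, h2]

lemma xr_nonneg (z w : M) (A : Finset M) : 0 ≤ xr z w A := by
  unfold xr; positivity

lemma sum_ind (A : Finset M) : ∑ z : M, ind z A = (A.card : ℝ) := by
  unfold ind
  rw [Finset.sum_ite_mem, Finset.univ_inter]
  simp

lemma sum_sum_xr (A : Finset M) :
    ∑ z : M, ∑ w : M, xr z w A
      = 2 * (A.card : ℝ) * ((Fintype.card M : ℝ) - (A.card : ℝ)) := by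
  have h : ∀ z : M, ∑ w : M, xr z w A
      = (Fintype.card M : ℝ) * ind z A + (A.card : ℝ) - 2 * (ind z A * (A.card : ℝ)) := by
    intro z
    simp only [xr_eq]
    rw [Finset.sum_sub_distrib, Finset.sum_add_distrib, ← Finset.mul_sum, ← Finset.mul_sum,
      sum_ind]
    simp [Finset.card_univ]
  simp only [h]
  rw [Finset.sum_sub_distrib, Finset.sum_add_distrib, ← Finset.mul_sum, ← Finset.mul_sum,
    ← Finset.sum_mul, sum_ind]
  simp [Finset.card_univ]
  ring

lemma aJ_comm (k : ℕ) (φ : Finset M → ℝ) (z w : M) : aJ k φ z w = aJ k φ w z := by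
  unfold aJ; simp only [xr_comm z w]

lemma aJ_self (k : ℕ) (φ : Finset M → ℝ) (z : M) : aJ k φ z z = 0 := by
  unfold aJ; simp [xr_self]

lemma xi_self (k : ℕ) (z : M) : xi k z z = 0 := by
  unfold xi; simp [xr_self]

lemma xi_nonneg (k : ℕ) (z w : M) : 0 ≤ xi k z w := by
  unfold xi; exact Finset.sum_nonneg (fun A _ => xr_nonneg z w A)

lemma DJ_nonneg (k : ℕ) (φ : Finset M → ℝ) (z r : M) : 0 ≤ DJ k φ z r := by
  unfold DJ
  have : 0 ≤ ∑ A ∈ Phi M k, (φ A - φ (sw z r A)) ^ 2 :=
    Finset.sum_nonneg (fun A _ => sq_nonneg _)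
  linarith

lemma sum_sub_mu (k : ℕ) (φ : Finset M → ℝ) : ∑ A ∈ Phi M k, (φ A - mu k φ) = 0 := by
  rw [Finset.sum_sub_distrib, Finset.sum_const, nsmul_eq_mul]
  unfold mu
  by_cases h : ((Phi M k).card : ℝ) = 0
  · have h0 : (Phi M k).card = 0 := by exact_mod_cast h
    rw [Finset.card_eq_zero] at h0
    simp [h0]
  · field_simp
    ring

/-- (i): the numbers `aJ z w` sum to zero. -/
lemma sum_aJ (k : ℕ) (φ : Finset M → ℝ) : ∑ z : M, ∑ w : M, aJ k φ z w = 0 := by
  unfold aJ
  have h1 : ∑ z : M, ∑ w : M, ∑ A ∈ Phi M k, xr z w A * (φ A - mu k φ)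
      = ∑ A ∈ Phi M k, (∑ z : M, ∑ w : M, xr z w A) * (φ A - mu k φ) := by
    have e1 : ∀ z : M, ∑ w : M, ∑ A ∈ Phi M k, xr z w A * (φ A - mu k φ)
        = ∑ A ∈ Phi M k, ∑ w : M, xr z w A * (φ A - mu k φ) := fun z => Finset.sum_comm
    simp only [e1]
    rw [Finset.sum_comm]
    refine Finset.sum_congr rfl (fun A _ => ?_)
    rw [Finset.sum_mul]
    refine Finset.sum_congr rfl (fun z _ => ?_)
    rw [Finset.sum_mul]
  rw [h1]
  have h2 : ∀ A ∈ Phi M k, (∑ z : M, ∑ w : M, xr z w A) * (φ A - mu k φ)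
      = (2 * (k : ℝ) * ((Fintype.card M : ℝ) - (k : ℝ))) * (φ A - mu k φ) := by
    intro A hA
    have hc : A.card = k := (Finset.mem_powersetCard.1 hA).2
    rw [sum_sum_xr, hc]
  rw [Finset.sum_congr rfl h2, ← Finset.mul_sum, sum_sub_mu, mul_zero]

lemma xr_sw_left (z r w : M) (hz : w ≠ z) (hr : w ≠ r) (A : Finset M) :
    xr z w (sw z r A) = xr r w A := by
  unfold xr; rw [ind_sw_left, ind_sw_other z r w hz hr]

lemma xr_sw_right (z r w : M) (hz : w ≠ z) (hr : w ≠ r) (A : Finset M) :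
    xr r w (sw z r A) = xr z w A := by
  unfold xr; rw [ind_sw_right, ind_sw_other z r w hz hr]

lemma g_sq (z r w : M) (A : Finset M) :
    (xr z w A - xr r w A) ^ 2 = xr z r A := by
  unfold xr ind
  split_ifs <;> norm_num

/-- (ii): for distinct `z, r, w`, `(a_zw - a_rw)^2 ≤ xi_zr * |Π_zr φ|^2`. -/
lemma diff_sq_le (k : ℕ) (φ : Finset M → ℝ) (z r w : M) (hwz : w ≠ z) (hwr : w ≠ r) :
    (aJ k φ z w - aJ k φ r w) ^ 2 ≤ xi k z r * DJ k φ z r := by
  set g : Finset M → ℝ := fun A => xr z w A - xr r w A with hg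
  have hgsw : ∀ A, g (sw z r A) = - g A := by
    intro A
    simp only [hg]
    rw [xr_sw_left z r w hwz hwr, xr_sw_right z r w hwz hwr]
    ring
  have hsumg : ∑ A ∈ Phi M k, g A = 0 := by
    have h := sum_sw k z r g
    simp only [hgsw] at h
    rw [Finset.sum_neg_distrib] at h
    linarith
  have hsw2 : ∑ A ∈ Phi M k, g A * φ (sw z r A) = - ∑ A ∈ Phi M k, g A * φ A := by
    have h := sum_sw k z r (fun B => g (sw z r B) * φ B)
    simp only [sw_sw, hgsw] at h
    rw [h, ← Finset.sum_neg_distrib]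
    refine Finset.sum_congr rfl (fun A _ => ?_)
    ring
  have hdiff : aJ k φ z w - aJ k φ r w
      = (1 / 2) * ∑ A ∈ Phi M k, g A * (φ A - φ (sw z r A)) := by
    have h1 : aJ k φ z w - aJ k φ r w = ∑ A ∈ Phi M k, g A * (φ A - mu k φ) := by
      unfold aJ
      rw [← Finset.sum_sub_distrib]
      refine Finset.sum_congr rfl (fun A _ => ?_)
      simp only [hg]; ring
    have h2 : ∑ A ∈ Phi M k, g A * (φ A - mu k φ)
        = ∑ A ∈ Phi M k, g A * φ A - mu k φ * ∑ A ∈ Phi M k, g A := by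
      rw [Finset.mul_sum, ← Finset.sum_sub_distrib]
      refine Finset.sum_congr rfl (fun A _ => ?_)
      ring
    have h3 : ∑ A ∈ Phi M k, g A * (φ A - φ (sw z r A))
        = ∑ A ∈ Phi M k, g A * φ A - ∑ A ∈ Phi M k, g A * φ (sw z r A) := by
      rw [← Finset.sum_sub_distrib]
      refine Finset.sum_congr rfl (fun A _ => ?_)
      ring
    rw [h1, h2, h3, hsw2, hsumg]
    ring
  have hcs := Finset.sum_mul_sq_le_sq_mul_sq (Phi M k) g (fun A => φ A - φ (sw z r A))
  have hg2 : ∑ A ∈ Phi M k, g A ^ 2 = xi k z r := by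
    unfold xi
    refine Finset.sum_congr rfl (fun A _ => ?_)
    simp only [hg]
    exact g_sq z r w A
  rw [hg2] at hcs
  rw [hdiff]
  unfold DJ
  nlinarith [hcs]

/-- elementary identity: `∑ z r, (c z - c r)^2 = 2 m ∑ c^2 - 2 (∑ c)^2`. -/
lemma sum_sum_sub_sq (c : M → ℝ) :
    ∑ z : M, ∑ r : M, (c z - c r) ^ 2
      = 2 * (Fintype.card M : ℝ) * ∑ z : M, c z ^ 2 - 2 * (∑ z : M, c z) ^ 2 := by
  have h : ∀ z : M, ∑ r : M, (c z - c r) ^ 2
      = (Fintype.card M : ℝ) * c z ^ 2 - 2 * c z * (∑ r : M, c r) + ∑ r : M, c r ^ 2 := by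
    intro z
    have : ∀ r : M, (c z - c r) ^ 2 = c z ^ 2 - 2 * c z * c r + c r ^ 2 := fun r => by ring
    simp only [this]
    rw [Finset.sum_add_distrib, Finset.sum_sub_distrib, ← Finset.mul_sum]
    simp [Finset.card_univ]
  simp only [h]
  rw [Finset.sum_add_distrib, Finset.sum_sub_distrib, ← Finset.mul_sum, ← Finset.sum_mul,
    ← Finset.mul_sum]
  simp [Finset.card_univ]
  ring

section Poincare

variable (a : M → M → ℝ)

/-- Poincare inequality on the triangular graph, in the form `2 ∑ b^2 ≤ (m-2) ∑ a^2`. -/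
lemma poincare_core (hsymm : ∀ z w, a z w = a w z) (hdiag : ∀ z, a z z = 0)
    (hsum : ∑ z : M, ∑ w : M, a z w = 0) (hm : 2 ≤ Fintype.card M) :
    2 * ∑ w : M, (∑ z : M, a z w) ^ 2
      ≤ ((Fintype.card M : ℝ) - 2) * ∑ z : M, ∑ w : M, a z w ^ 2 := by
  set b : M → ℝ := fun w => ∑ z : M, a z w with hb
  set B : ℝ := ∑ w : M, b w ^ 2 with hB
  set S : ℝ := ∑ z : M, ∑ w : M, a z w ^ 2 with hS
  have hbsum : ∑ w : M, b w = 0 := by
    simp only [hb]
    rw [Finset.sum_comm]
    exact hsum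
  have hrow : ∀ z : M, ∑ w : M, a z w = b z := by
    intro z
    simp only [hb]
    exact Finset.sum_congr rfl (fun w _ => hsymm z w)
  set g : M → M → ℝ := fun z w => if z = w then 0 else b z + b w with hg
  -- (1) cross term
  have h1 : ∑ z : M, ∑ w : M, a z w * g z w = 2 * B := by
    have e : ∀ z w : M, a z w * g z w = b z * a z w + a z w * b w := by
      intro z w
      simp only [hg]
      by_cases h : z = w
      · subst h; simp [hdiag]
      · simp [h]; ring
    simp only [e]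
    have e1 : ∑ z : M, ∑ w : M, (b z * a z w + a z w * b w)
        = ∑ z : M, b z * b z + ∑ w : M, b w * b w := by
      have : ∀ z : M, ∑ w : M, (b z * a z w + a z w * b w)
          = b z * b z + ∑ w : M, a z w * b w := by
        intro z
        rw [Finset.sum_add_distrib, ← Finset.mul_sum, hrow]
      simp only [this]
      rw [Finset.sum_add_distrib, Finset.sum_comm]
      congr 1
      refine Finset.sum_congr rfl (fun w _ => ?_)
      rw [← Finset.sum_mul]
    rw [e1]
    simp only [hB]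
    have : ∀ w : M, b w * b w = b w ^ 2 := fun w => by ring
    simp only [this]
    ring
  -- (2) norm of g
  have h2 : ∑ z : M, ∑ w : M, g z w ^ 2 = 2 * ((Fintype.card M : ℝ) - 2) * B := by
    have e : ∀ z w : M, g z w ^ 2
        = (b z ^ 2 + 2 * b z * b w + b w ^ 2) - (if z = w then 4 * b z ^ 2 else 0) := by
      intro z w
      simp only [hg]
      by_cases h : z = w
      · subst h; simp; ring
      · simp [h]; ring
    simp only [e]
    have e2 : ∀ z : M, ∑ w : M, ((b z ^ 2 + 2 * b z * b w + b w ^ 2)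
          - (if z = w then 4 * b z ^ 2 else 0))
        = (Fintype.card M : ℝ) * b z ^ 2 + B - 4 * b z ^ 2 := by
      intro z
      rw [Finset.sum_sub_distrib, Finset.sum_add_distrib, Finset.sum_add_distrib,
        ← Finset.mul_sum, hbsum, Finset.sum_ite_eq]
      simp [Finset.card_univ, hB]
    simp only [e2]
    rw [Finset.sum_sub_distrib, Finset.sum_add_distrib, ← Finset.mul_sum, ← Finset.mul_sum]
    simp [Finset.card_univ, hB]
    ring
  -- (3) Cauchy-Schwarz on pairs
  have hcs := Finset.sum_mul_sq_le_sq_mul_sq (univ : Finset (M × M))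
    (fun p => a p.1 p.2) (fun p => g p.1 p.2)
  rw [Fintype.sum_prod_type, Fintype.sum_prod_type, Fintype.sum_prod_type] at hcs
  simp only [] at hcs
  rw [h1, h2] at hcs
  have hB0 : 0 ≤ B := Finset.sum_nonneg (fun w _ => sq_nonneg _)
  have hS0 : 0 ≤ S := Finset.sum_nonneg (fun z _ => Finset.sum_nonneg (fun w _ => sq_nonneg _))
  have hm' : (2 : ℝ) ≤ (Fintype.card M : ℝ) := by exact_mod_cast hm
  by_contra hcon
  push Not at hcon
  have hBpos : 0 < B := by
    by_contra hB'
    have : B = 0 := le_antisymm (not_lt.1 hB') hB0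
    rw [this] at hcon
    nlinarith
  nlinarith

end Poincare

/-- `∑ z r w, (a z w - a r w)^2 = 2 m ∑ a^2 - 2 ∑ b^2`. -/
lemma triple_identity (a : M → M → ℝ) :
    ∑ z : M, ∑ r : M, ∑ w : M, (a z w - a r w) ^ 2
      = 2 * (Fintype.card M : ℝ) * ∑ z : M, ∑ w : M, a z w ^ 2
        - 2 * ∑ w : M, (∑ z : M, a z w) ^ 2 := by
  have e1 : ∑ z : M, ∑ r : M, ∑ w : M, (a z w - a r w) ^ 2
      = ∑ w : M, ∑ z : M, ∑ r : M, (a z w - a r w) ^ 2 := by
    have : ∀ z : M, ∑ r : M, ∑ w : M, (a z w - a r w) ^ 2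
        = ∑ w : M, ∑ r : M, (a z w - a r w) ^ 2 := fun z => Finset.sum_comm
    simp only [this]
    rw [Finset.sum_comm]
  rw [e1]
  have e2 : ∀ w : M, ∑ z : M, ∑ r : M, (a z w - a r w) ^ 2
      = 2 * (Fintype.card M : ℝ) * ∑ z : M, a z w ^ 2 - 2 * (∑ z : M, a z w) ^ 2 :=
    fun w => sum_sum_sub_sq (fun z => a z w)
  simp only [e2]
  have hc : ∑ w : M, ∑ z : M, a z w ^ 2 = ∑ z : M, ∑ w : M, a z w ^ 2 := Finset.sum_comm
  rw [Finset.sum_sub_distrib, ← Finset.mul_sum, ← Finset.mul_sum, hc]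

lemma sum_other (z r : M) (c : ℝ) (hc : z = r → c = 0) :
    ∑ w : M, (if z ≠ r ∧ w ≠ z ∧ w ≠ r then c else 0) = ((Fintype.card M : ℝ) - 2) * c := by
  by_cases hzr : z = r
  · rw [hc hzr]; simp
  · have e : ∀ w : M, (if z ≠ r ∧ w ≠ z ∧ w ≠ r then c else 0)
        = c - (if w = z then c else 0) - (if w = r then c else 0) := by
      intro w
      by_cases hwz : w = z
      · have hwr : w ≠ r := fun h => hzr (hwz.symm.trans h)
        simp [hwz, hzr]
      · by_cases hwr : w = r
        · simp [hwr, hzr]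
          intro h; exact absurd h.symm hzr
        · simp [hwz, hwr, hzr]
    simp only [e]
    rw [Finset.sum_sub_distrib, Finset.sum_sub_distrib, Finset.sum_ite_eq', Finset.sum_ite_eq']
    simp [Finset.card_univ]
    ring

/-- **Abstract Johnson inequality (J)**: `m * ∑ a_q^2 ≤ (m - 2) * ∑ xi_q * |Π_q φ|^2`
(both sums over ordered pairs; the diagonal terms vanish). -/
theorem johnson_J (k : ℕ) (φ : Finset M → ℝ) :
    (Fintype.card M : ℝ) * ∑ z : M, ∑ w : M, aJ k φ z w ^ 2
      ≤ ((Fintype.card M : ℝ) - 2) * ∑ z : M, ∑ r : M, xi k z r * DJ k φ z r := by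
  rcases subsingleton_or_nontrivial M with hM | hM
  · have h1 : ∀ z w : M, aJ k φ z w = 0 := by
      intro z w; rw [Subsingleton.elim w z]; exact aJ_self k φ z
    have h2 : ∀ z r : M, xi k z r = 0 := by
      intro z r; rw [Subsingleton.elim r z]; exact xi_self k z
    simp [h1, h2]
  · have hm : 2 ≤ Fintype.card M := Fintype.one_lt_card
    have hP := poincare_core (aJ k φ) (aJ_comm k φ) (aJ_self k φ) (sum_aJ k φ) hm
    have hU := triple_identity (aJ k φ)
    have hterm : ∀ z r w : M, (aJ k φ z w - aJ k φ r w) ^ 2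
        ≤ (if z ≠ r ∧ w ≠ z ∧ w ≠ r then xi k z r * DJ k φ z r else 0)
          + (if w = z then aJ k φ r z ^ 2 else 0) + (if w = r then aJ k φ z r ^ 2 else 0) := by
      intro z r w
      have hc0 : 0 ≤ xi k z r * DJ k φ z r := mul_nonneg (xi_nonneg k z r) (DJ_nonneg k φ z r)
      by_cases hwz : w = z
      · subst hwz
        rw [aJ_self k φ w]
        by_cases hwr : w = r
        · subst hwr
          simp [aJ_self]
        · have h1 : ¬ (w ≠ r ∧ w ≠ w ∧ w ≠ r) := fun h => h.2.1 rfl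
          rw [if_neg h1, if_pos rfl, if_neg hwr]
          have : (0 - aJ k φ r w) ^ 2 = aJ k φ r w ^ 2 := by ring
          rw [this]; linarith
      · by_cases hwr : w = r
        · subst hwr
          have h1 : ¬ (z ≠ w ∧ w ≠ z ∧ w ≠ w) := fun h => h.2.2 rfl
          rw [if_neg h1, if_neg hwz, if_pos rfl, aJ_self k φ w]
          have : (aJ k φ z w - 0) ^ 2 = aJ k φ z w ^ 2 := by ring
          rw [this]; linarith
        · by_cases hzr : z = r
          · subst hzr
            have h1 : ¬ (z ≠ z ∧ w ≠ z ∧ w ≠ z) := fun h => h.1 rfl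
            rw [if_neg h1, if_neg hwz]
            simp
          · rw [if_pos ⟨hzr, hwz, hwr⟩, if_neg hwz, if_neg hwr]
            have := diff_sq_le k φ z r w hwz hwr
            linarith
    have hsumle : ∑ z : M, ∑ r : M, ∑ w : M, (aJ k φ z w - aJ k φ r w) ^ 2
        ≤ ∑ z : M, ∑ r : M, ∑ w : M,
          ((if z ≠ r ∧ w ≠ z ∧ w ≠ r then xi k z r * DJ k φ z r else 0)
          + (if w = z then aJ k φ r z ^ 2 else 0) + (if w = r then aJ k φ z r ^ 2 else 0)) :=
      Finset.sum_le_sum (fun z _ => Finset.sum_le_sum (fun r _ =>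
        Finset.sum_le_sum (fun w _ => hterm z r w)))
    have hinner : ∀ z r : M, ∑ w : M,
          ((if z ≠ r ∧ w ≠ z ∧ w ≠ r then xi k z r * DJ k φ z r else 0)
          + (if w = z then aJ k φ r z ^ 2 else 0) + (if w = r then aJ k φ z r ^ 2 else 0))
        = ((Fintype.card M : ℝ) - 2) * (xi k z r * DJ k φ z r)
          + aJ k φ r z ^ 2 + aJ k φ z r ^ 2 := by
      intro z r
      rw [Finset.sum_add_distrib, Finset.sum_add_distrib,
        sum_other z r _ (fun h => by rw [h, xi_self]; ring),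
        Finset.sum_ite_eq', Finset.sum_ite_eq']
      simp
    simp only [hinner] at hsumle
    have hsplit : ∑ z : M, ∑ r : M, (((Fintype.card M : ℝ) - 2) * (xi k z r * DJ k φ z r)
          + aJ k φ r z ^ 2 + aJ k φ z r ^ 2)
        = ((Fintype.card M : ℝ) - 2) * ∑ z : M, ∑ r : M, xi k z r * DJ k φ z r
          + 2 * ∑ z : M, ∑ w : M, aJ k φ z w ^ 2 := by
      have hc : ∑ z : M, ∑ r : M, aJ k φ r z ^ 2 = ∑ z : M, ∑ w : M, aJ k φ z w ^ 2 :=
        Finset.sum_comm
      simp only [Finset.sum_add_distrib, ← Finset.mul_sum]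
      rw [hc]; ring
    rw [hsplit] at hsumle
    linarith

/-! ### Bridging lemmas (filter / cardinality forms) and the divided form -/

lemma xr_eq_ite (z w : M) (A : Finset M) :
    xr z w A = if (z ∈ A ↔ w ∈ A) then 0 else 1 := by
  unfold xr ind
  by_cases hz : z ∈ A <;> by_cases hw : w ∈ A <;> simp [hz, hw]

/-- the `k`-subsets containing exactly one of `z, w` -/
def X (k : ℕ) (z w : M) : Finset (Finset M) :=
  (Phi M k).filter (fun A => ¬ (z ∈ A ↔ w ∈ A))

lemma xi_eq_card (k : ℕ) (z w : M) : xi k z w = ((X k z w).card : ℝ) := by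
  unfold xi X
  rw [Finset.card_filter]
  push_cast
  refine Finset.sum_congr rfl (fun A _ => ?_)
  rw [xr_eq_ite]
  by_cases h : (z ∈ A ↔ w ∈ A) <;> simp [h]

lemma aJ_eq_sum (k : ℕ) (φ : Finset M → ℝ) (z w : M) :
    aJ k φ z w = ∑ A ∈ X k z w, (φ A - mu k φ) := by
  unfold aJ X
  rw [Finset.sum_filter]
  refine Finset.sum_congr rfl (fun A _ => ?_)
  rw [xr_eq_ite]
  by_cases h : (z ∈ A ↔ w ∈ A) <;> simp [h]

lemma xi_comm (k : ℕ) (z w : M) : xi k z w = xi k w z := by
  unfold xi; simp only [xr_comm z w]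

lemma xi_change_left (k : ℕ) (z z' w : M) (hz : w ≠ z) (hz' : w ≠ z') :
    xi k z w = xi k z' w := by
  unfold xi
  rw [← sum_sw k z z' (fun A => xr z w A)]
  refine Finset.sum_congr rfl (fun A _ => ?_)
  exact xr_sw_left z z' w hz hz' A

/-- all the sets `X z w` (`z ≠ w`) have the same size -/
lemma xi_eq_of_ne (k : ℕ) (z w z' w' : M) (h : z ≠ w) (h' : z' ≠ w') :
    xi k z w = xi k z' w' := by
  by_cases hz'w : z' = w
  · have hww' : w ≠ w' := by rw [← hz'w]; exact h'
    rw [xi_change_left k z w' w h.symm hww', xi_comm k w' w, hz'w]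
  · rw [xi_change_left k z z' w h.symm (Ne.symm hz'w), xi_comm k z' w,
      xi_change_left k w w' z' hz'w h', xi_comm k w' z']

lemma sw_self (z : M) (A : Finset M) : sw z z A = A := by
  ext x; simp [mem_sw]

lemma DJ_self (k : ℕ) (φ : Finset M → ℝ) (z : M) : DJ k φ z z = 0 := by
  unfold DJ; simp [sw_self]

lemma DJ_comm (k : ℕ) (φ : Finset M → ℝ) (z r : M) : DJ k φ z r = DJ k φ r z := by
  unfold DJ sw; rw [Equiv.swap_comm]

/-- `K`-form: `|X| * (mean_X φ - mean φ)^2 = a^2 / |X|`. -/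
lemma K_eq (k : ℕ) (φ : Finset M → ℝ) (z w : M) :
    ((X k z w).card : ℝ) * ((∑ A ∈ X k z w, φ A) / ((X k z w).card : ℝ) - mu k φ) ^ 2
      = aJ k φ z w ^ 2 / xi k z w := by
  rw [aJ_eq_sum, xi_eq_card, Finset.sum_sub_distrib, Finset.sum_const, nsmul_eq_mul]
  by_cases h : ((X k z w).card : ℝ) = 0
  · rw [h]; simp
  · field_simp

/-- **(J), divided form**: `m * ∑ a_q^2 / xi_q ≤ (m - 2) * ∑ |Π_q φ|^2`
(ordered pairs on both sides; diagonal terms vanish). -/
theorem johnson_J_div (k : ℕ) (φ : Finset M → ℝ) :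
    (Fintype.card M : ℝ) * ∑ z : M, ∑ w : M, aJ k φ z w ^ 2 / xi k z w
      ≤ ((Fintype.card M : ℝ) - 2) * ∑ z : M, ∑ r : M, DJ k φ z r := by
  rcases subsingleton_or_nontrivial M with hM | hM
  · have h1 : ∀ z w : M, aJ k φ z w = 0 := by
      intro z w; rw [Subsingleton.elim w z]; exact aJ_self k φ z
    have h2 : ∀ z r : M, DJ k φ z r = 0 := by
      intro z r; rw [Subsingleton.elim r z]; exact DJ_self k φ z
    simp [h1, h2]
  · obtain ⟨z0, w0, h0⟩ := exists_pair_ne M
    have hxi : ∀ z w : M, z ≠ w → xi k z w = xi k z0 w0 :=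
      fun z w h => xi_eq_of_ne k z w z0 w0 h h0
    have hm : (2 : ℝ) ≤ (Fintype.card M : ℝ) := by
      have : 2 ≤ Fintype.card M := Fintype.one_lt_card
      exact_mod_cast this
    have hJ := johnson_J k φ
    have hξ0 : 0 ≤ xi k z0 w0 := xi_nonneg k z0 w0
    have e1 : ∀ z w : M, aJ k φ z w ^ 2 / xi k z w = aJ k φ z w ^ 2 / xi k z0 w0 := by
      intro z w
      by_cases h : z = w
      · subst h; simp [aJ_self]
      · rw [hxi z w h]
    have e2 : ∀ z r : M, xi k z r * DJ k φ z r = xi k z0 w0 * DJ k φ z r := by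
      intro z r
      by_cases h : z = r
      · subst h; simp [DJ_self]
      · rw [hxi z r h]
    simp only [e1]
    simp only [e2] at hJ
    have hD0 : 0 ≤ ∑ z : M, ∑ r : M, DJ k φ z r :=
      Finset.sum_nonneg (fun z _ => Finset.sum_nonneg (fun r _ => DJ_nonneg k φ z r))
    rcases eq_or_lt_of_le hξ0 with h | h
    · rw [← h]
      simp only [div_zero, Finset.sum_const_zero, mul_zero]
      exact mul_nonneg (by linarith) hD0
    · have e3 : ∑ z : M, ∑ w : M, aJ k φ z w ^ 2 / xi k z0 w0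
          = (∑ z : M, ∑ w : M, aJ k φ z w ^ 2) / xi k z0 w0 := by
        simp only [Finset.sum_div]
      have e4 : ∑ z : M, ∑ r : M, xi k z0 w0 * DJ k φ z r
          = xi k z0 w0 * ∑ z : M, ∑ r : M, DJ k φ z r := by
        simp only [Finset.mul_sum]
      rw [e3, ← mul_div_assoc, div_le_iff₀ h]
      rw [e4] at hJ
      have e5 : ((Fintype.card M : ℝ) - 2) * (∑ z : M, ∑ r : M, DJ k φ z r) * xi k z0 w0
          = ((Fintype.card M : ℝ) - 2) * (xi k z0 w0 * ∑ z : M, ∑ r : M, DJ k φ z r) := by ring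
      rw [e5]; exact hJ

end Vale.Agent.Lib.P335.H91
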